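import Vale.Agent.P116.H730.Fill

/-! Absorption: labels `lab : Pt → Option (ι ⊕ C)` (`none` = outside, `inl i` = special node `i`,
`inr c` = colour `c`). Every monochromatic component adjacent to a special node is given to it. -/

namespace Vale.Agent.P116.H730

open Classical

variable {ι C : Type*}

/-- monochromatic component of `v` -/
def Kc (lab : Pt → Option (ι ⊕ C)) (v : Pt) : Set Pt := {w | RC {x | lab x = lab v} v w}

/-- the set `S` touches the special node `i` -/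
def AdS (lab : Pt → Option (ι ⊕ C)) (S : Set Pt) (i : ι) : Prop :=
  ∃ x ∈ S, ∃ s, lab s = some (Sum.inl i) ∧ Cl x s

noncomputable def pick (lab : Pt → Option (ι ⊕ C)) (S : Set Pt) : ι ⊕ Set Pt :=
  if h : ∃ i, AdS lab S i then Sum.inl (Classical.choose h) else Sum.inr S

/-- the class of a point -/
noncomputable def cl (lab : Pt → Option (ι ⊕ C)) (v : Pt) : Option (ι ⊕ Set Pt) :=
  match lab v with
  | none => none
  | some (Sum.inl i) => some (Sum.inl i)
  | some (Sum.inr _) => some (pick lab (Kc lab v))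

variable {lab : Pt → Option (ι ⊕ C)}

theorem cl_none {v : Pt} : cl lab v = none ↔ lab v = none := by
  unfold cl
  rcases h : lab v with _ | (i | c) <;> simp

theorem cl_inl {v : Pt} {i : ι} (h : lab v = some (Sum.inl i)) : cl lab v = some (Sum.inl i) := by
  unfold cl; rw [h]

theorem cl_inr {v : Pt} {c : C} (h : lab v = some (Sum.inr c)) :
    cl lab v = some (pick lab (Kc lab v)) := by
  unfold cl; rw [h]

theorem Kc_lab {v w : Pt} (h : w ∈ Kc lab v) : lab w = lab v :=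
  RC.mem (S := {x | lab x = lab v}) h rfl

theorem Kc_eq {v w : Pt} (h : w ∈ Kc lab v) : Kc lab w = Kc lab v := by
  have e : lab w = lab v := Kc_lab h
  ext z
  constructor
  · intro hz
    have hz' : RC {x | lab x = lab w} w z := hz
    rw [e] at hz'
    exact RC.trans h hz'
  · intro hz
    have hz' : RC {x | lab x = lab v} v z := hz
    show RC {x | lab x = lab w} w z
    rw [e]
    exact RC.trans (RC.symm h) hz'

theorem Kc_self (v : Pt) : v ∈ Kc lab v := RC.refl _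

theorem Kc_cl {v w : Pt} (h : Cl v w) (e : lab v = lab w) : w ∈ Kc lab v :=
  RC.single h rfl e.symm

theorem cl_eq_of_Kc {v w : Pt} (h : w ∈ Kc lab v) : cl lab w = cl lab v := by
  have e := Kc_lab h
  rcases hv : lab v with _ | (i | c)
  · rw [cl_none.2 hv, cl_none.2 (e.trans hv)]
  · rw [cl_inl hv, cl_inl (e.trans hv)]
  · rw [cl_inr hv, cl_inr (e.trans hv), Kc_eq h]

/-- adjacent points in different classes have different labels -/
theorem lab_ne_of_cl {v w : Pt} (h : Cl v w) (hne : cl lab v ≠ cl lab w) : lab v ≠ lab w :=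
  fun e => hne (cl_eq_of_Kc (Kc_cl h e)).symm

theorem pick_inl {S : Set Pt} {i : ι} (h : pick lab S = Sum.inl i) : AdS lab S i := by
  unfold pick at h
  split_ifs at h with h'
  · have := Classical.choose_spec h'
    rwa [Sum.inl.inj h] at this

theorem pick_inr {S S' : Set Pt} (h : pick lab S = Sum.inr S') : S = S' ∧ ∀ i, ¬ AdS lab S i := by
  unfold pick at h
  split_ifs at h with h'
  · exact ⟨Sum.inr.inj h, fun i hi => h' ⟨i, hi⟩⟩

/-- a point of a special class -/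
theorem cl_special {v : Pt} {i : ι} (h : cl lab v = some (Sum.inl i)) :
    lab v = some (Sum.inl i) ∨ ∃ c x s, lab v = some (Sum.inr c) ∧ lab x = some (Sum.inr c) ∧
      lab s = some (Sum.inl i) ∧ Cl x s ∧ x ∈ Kc lab v := by
  rcases hv : lab v with _ | (j | c)
  · rw [cl_none.2 hv] at h; cases h
  · rw [cl_inl hv] at h
    left; rw [Sum.inl.inj (Option.some.inj h)]
  · rw [cl_inr hv] at h
    obtain ⟨x, hx, s, hs, hxs⟩ := pick_inl (Option.some.inj h)
    exact Or.inr ⟨c, x, s, rfl, (Kc_lab hx).trans hv, hs, hxs, hx⟩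

/-- a point of a regular class -/
theorem cl_regular {v : Pt} {S : Set Pt} (h : cl lab v = some (Sum.inr S)) :
    (∃ c, lab v = some (Sum.inr c)) ∧ Kc lab v = S ∧ ∀ i, ¬ AdS lab (Kc lab v) i := by
  rcases hv : lab v with _ | (j | c)
  · rw [cl_none.2 hv] at h; cases h
  · rw [cl_inl hv] at h; cases h
  · rw [cl_inr hv] at h
    obtain ⟨h1, h2⟩ := pick_inr (Option.some.inj h)
    exact ⟨⟨c, rfl⟩, h1, h2⟩

theorem cl_cn_inr (S : Set Pt) : Cn {v | cl lab v = some (Sum.inr S)} := by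
  intro x hx y hy
  obtain ⟨⟨c, hc⟩, hK, _⟩ := cl_regular hx
  obtain ⟨_, hK', _⟩ := cl_regular hy
  have hyx : y ∈ Kc lab x := by rw [hK, ← hK']; exact Kc_self y
  refine RC.restrict (S := {z | lab z = lab x}) hyx ?_
  intro z hz
  exact (cl_eq_of_Kc (v := x) hz).trans hx

theorem cl_cn_inl (hsp : ∀ i, Cn {v | lab v = some (Sum.inl i)}) (i : ι) :
    Cn {v | cl lab v = some (Sum.inl i)} := by
  have key : ∀ x, cl lab x = some (Sum.inl i) → ∃ s, lab s = some (Sum.inl i) ∧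
      RC {v | cl lab v = some (Sum.inl i)} x s := by
    intro x hx
    rcases cl_special hx with h | ⟨c, z, s, h1, h2, h3, h4, h5⟩
    · exact ⟨x, h, RC.refl _⟩
    · refine ⟨s, h3, RC.trans (RC.restrict (S := {z | lab z = lab x}) h5 ?_)
        (RC.single h4 ((cl_eq_of_Kc h5).trans hx) (cl_inl h3))⟩
      intro w hw
      exact (cl_eq_of_Kc (v := x) hw).trans hx
  intro x hx y hy
  obtain ⟨s, hs, h1⟩ := key x hx
  obtain ⟨t, ht, h2⟩ := key y hy
  exact (h1.trans ((hsp i s hs t ht).mono (fun z hz => cl_inl hz))).trans h2.symm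

/-- three different labels off the special nodes -/
def TL (lab : Pt → Option (ι ⊕ C)) (b : Pt) : Prop :=
  ∃ x y, Cl b x ∧ Cl b y ∧ Cl x y ∧ lab b ≠ lab x ∧ lab b ≠ lab y ∧ lab x ≠ lab y ∧
    (∀ i, lab b ≠ some (Sum.inl i)) ∧ (∀ i, lab x ≠ some (Sum.inl i)) ∧
    (∀ i, lab y ≠ some (Sum.inl i))

theorem TL_of {b : Pt} {S : Set Pt} (hb : cl lab b = some (Sum.inr S)) (h : TP (cl lab) b) :
    TL lab b := by
  obtain ⟨x, y, h1, h2, h3, h4, h5, h6⟩ := h
  obtain ⟨⟨c, hc⟩, hK, hA⟩ := cl_regular hb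
  refine ⟨x, y, h1, h2, h3, lab_ne_of_cl h1 h4, lab_ne_of_cl h2 h5, lab_ne_of_cl h3 h6, ?_, ?_, ?_⟩
  · intro i hi
    rw [hc] at hi; cases hi
  · intro i hi
    exact hA i ⟨b, Kc_self b, x, hi, h1⟩
  · intro i hi
    exact hA i ⟨b, Kc_self b, y, hi, h2⟩

/-- **charge or absorb** (finite form) -/
theorem absorb {W : Set Pt} (hW : W.Finite) (hco : Cn Wᶜ) (hsub : ∀ v, lab v ≠ none → v ∈ W)
    (hsp : ∀ i, Cn {v | lab v = some (Sum.inl i)}) (reps T : Finset Pt)
    (hreps : ∀ v, lab v ≠ none → ∃ r ∈ reps, RC {v | lab v ≠ none} v r)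
    (hT : ∀ b, TL lab b → b ∈ T) :
    ∃ (M : Finset (ι ⊕ Set Pt)) (B : ι ⊕ Set Pt → Set Pt),
      (∀ k ∈ M, (B k).Nonempty ∧ Cn (B k) ∧ ∀ v ∈ B k, lab v ≠ none) ∧
      (∀ k ∈ M, ∀ k' ∈ M, k ≠ k' → Disjoint (fl W (B k)) (fl W (B k'))) ∧
      (∀ v, lab v ≠ none → ∃ k ∈ M, v ∈ fl W (B k)) ∧
      (∀ i, Sum.inl i ∈ M → (∃ s, lab s = some (Sum.inl i)) ∧
        (∀ v, lab v = some (Sum.inl i) → v ∈ B (Sum.inl i)) ∧
        ∀ v ∈ B (Sum.inl i), lab v = some (Sum.inl i) ∨
          ∃ c x s, lab v = some (Sum.inr c) ∧ lab x = some (Sum.inr c) ∧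
            lab s = some (Sum.inl i) ∧ Cl x s ∧ x ∈ B (Sum.inl i)) ∧
      (∀ S, Sum.inr S ∈ M → ∃ c, ∀ v ∈ B (Sum.inr S), lab v = some (Sum.inr c)) ∧
      (∀ k, ∀ v ∈ B k, ∀ w, Cl v w → lab v = lab w → w ∈ B k) ∧
      (M.filter (fun k => ∃ S, k = Sum.inr S)).card ≤ reps.card + T.card := by
  have hcls : Cls W (cl lab) :=
    { fin := hW
      co := hco
      sub := fun v hv => hsub v (fun h => hv (cl_none.2 h))
      cc := by
        rintro (i | S)
        · exact cl_cn_inl hsp i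
        · exact cl_cn_inr S }
  have hfin : {k | Mx W (cl lab) k}.Finite := by
    have h1 : (some ⁻¹' (cl lab '' W) : Set (ι ⊕ Set Pt)).Finite :=
      (hW.image (cl lab)).preimage (Option.some_injective _).injOn
    refine h1.subset ?_
    rintro k ⟨⟨v, hv⟩, _⟩
    exact ⟨v, hcls.bsub k hv, hv⟩
  have hM : ∀ k, k ∈ hfin.toFinset ↔ Mx W (cl lab) k := by
    intro k; simp
  refine ⟨hfin.toFinset, fun k => Bc (cl lab) k, ?_, ?_, ?_, ?_, ?_, ?_, ?_⟩
  · intro k hk
    rw [hM] at hk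
    refine ⟨hk.1, hcls.cc k, ?_⟩
    intro v hv hn
    have hv' : cl lab v = some k := hv
    rw [cl_none.2 hn] at hv'
    cases hv'
  · intro k hk k' hk' hne
    rw [hM] at hk hk'
    exact hcls.disj hk hk' hne
  · intro v hv
    obtain ⟨k, hk, hvk⟩ := hcls.cover (v := v) (fun h => hv (cl_none.1 h))
    exact ⟨k, (hM k).2 hk, hvk⟩
  · intro i hi
    rw [hM] at hi
    refine ⟨?_, fun v hv => cl_inl hv, ?_⟩
    · obtain ⟨v, hv⟩ := hi.1
      rcases cl_special hv with h | ⟨c, z, s, h1, h2, h3, h4, h5⟩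
      · exact ⟨v, h⟩
      · exact ⟨s, h3⟩
    · intro v hv
      rcases cl_special hv with h | ⟨c, z, s, h1, h2, h3, h4, h5⟩
      · exact Or.inl h
      · exact Or.inr ⟨c, z, s, h1, h2, h3, h4, (cl_eq_of_Kc h5).trans hv⟩
  · intro S hS
    rw [hM] at hS
    obtain ⟨v, hv⟩ := hS.1
    obtain ⟨⟨c, hc⟩, hK, _⟩ := cl_regular hv
    refine ⟨c, ?_⟩
    intro w hw
    obtain ⟨_, hK', _⟩ := cl_regular hw
    have : w ∈ Kc lab v := by rw [hK, ← hK']; exact Kc_self w
    exact (Kc_lab this).trans hc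
  · intro k v hv w hvw he
    exact (cl_eq_of_Kc (Kc_cl hvw he)).trans hv
  · have hlt : ∀ b, (∃ k ∈ hfin.toFinset.filter (fun k => ∃ S, k = Sum.inr S),
        cl lab b = some k) → TP (cl lab) b → b ∈ T := by
      rintro b ⟨k, hk, hb⟩ hbT
      obtain ⟨_, S, rfl⟩ := Finset.mem_filter.1 hk
      exact hT b (TL_of hb hbT)
    refine hcls.count (hfin.toFinset.filter (fun k => ∃ S, k = Sum.inr S)) ?_ reps T ?_ hlt
    · intro k hk
      exact (hM k).1 (Finset.mem_filter.1 hk).1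
    · intro v hv
      obtain ⟨r, hr, hvr⟩ := hreps v (fun h => hv (cl_none.2 h))
      exact ⟨r, hr, RC.mono (S := {v | lab v ≠ none}) (T := {v | cl lab v ≠ none})
        (by intro z hz h; exact hz (cl_none.1 h)) hvr⟩

end Vale.Agent.P116.H730
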