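import Vale.Agent.P116.AD.Spec2
import Vale.Agent.P116.AD.H884.Brg
import Vale.Agent.P116.AD.H912.Max

/-!
# P116, block [7]: the deterministic half at one fine mesh (RowFin)
-/

open Set Filter Topology Metric MeasureTheory

namespace Vale.Agent.P116.AD

open H906
open KB720 (cell un clo chi bdc Tk Flat)
open KB.H984 (hitc two bad)
open Vale.Agent.P116.Star (pt St Rl Tch Ins Pk Pks)
open KB (Hon Zs oscS oscC Eo)

/-- a compact nonempty set with frontier off `K` has a point off `K` -/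
lemma exists_off {K P : Set ℂ} (hP : IsCompact P) (hne : P.Nonempty)
    (hfr : Disjoint (frontier P) K) : (P \ K).Nonempty := by
  have hne' : P ≠ univ := by
    intro h
    have := hP.isBounded
    rw [h] at this
    exact NormedSpace.unbounded_univ ℝ ℂ this
  obtain ⟨z, hz⟩ : (frontier P).Nonempty := by
    rw [nonempty_iff_ne_empty, Ne, frontier_eq_empty_iff]
    rintro (h | h)
    · exact hne.ne_empty h
    · exact hne' h
  exact ⟨z, hP.isClosed.frontier_subset hz, disjoint_left.1 hfr hz⟩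

lemma oscS_le {K P : Set ℂ} {u : ℂ → ℝ} {a b : ℝ} (hne : (P \ K).Nonempty)
    (h : ∀ z ∈ P, z ∉ K → u z ∈ Icc a b) : oscS K u P ≤ b - a := by
  unfold oscS
  have h1 : sSup (u '' (P \ K)) ≤ b := by
    refine csSup_le (hne.image u) ?_
    rintro _ ⟨z, hz, rfl⟩
    exact (h z hz.1 hz.2).2
  have h2 : a ≤ sInf (u '' (P \ K)) := by
    refine le_csInf (hne.image u) ?_
    rintro _ ⟨z, hz, rfl⟩
    exact (h z hz.1 hz.2).1
  linarith

/-- values on the piece from the values on the core -/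
lemma piece_vals {K w P0 P : Set ℂ} {u : ℂ → ℝ} {a b : ℝ} (hK : IsCompact K) (hw : IsCompact w)
    (hP0w : P0 ⊆ w) (hfr : Disjoint (frontier P0) K) (hsm : KF.SMon K w u)
    (hP : P ⊆ fil P0) (h : ∀ z ∈ P0, z ∉ K → u z ∈ Icc a b) :
    ∀ z ∈ P, z ∉ K → u z ∈ Icc a b := by
  have hwb : ¬ Bornology.IsBounded wᶜ := by
    intro hb
    have h1 : Bornology.IsBounded (w ∪ wᶜ) := hw.isBounded.union hb
    rw [union_compl_self] at h1
    exact NormedSpace.unbounded_univ ℝ ℂ h1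
  intro z hz hzK
  have h1 : u z ≤ b := H912.max_le hK hwb hP0w hfr (hsm.1 b) (fun y hy hyK => (h y hy hyK).2)
    z (hP hz) hzK
  have h2 : - u z ≤ - a := H912.max_le (u := fun z => - u z) hK hwb hP0w hfr (hsm.2 (-a))
    (fun y hy hyK => by have := (h y hy hyK).1; linarith) z (hP hz) hzK
  exact ⟨by linarith, h1⟩

open Classical in
theorem rowFin (hL : RowLab) (hR : RowRep) (hT : RowTri) (hC : RowCore) : RowFin := by
  intro ι _ K w u r d₀ D h s QQ MM lo hi ρ k hK hKf hw hwf hfr hd₀ hu hS hcell hQn hM hev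
    TT BB hTT hBB
  obtain ⟨l1, -⟩ := hL ι K w u d₀ D h s QQ MM lo hi ρ (d₀ / 2 ^ k) hw hwf hM
  obtain ⟨reps, hr1, hr2⟩ := hR d₀ D k hd₀
  obtain ⟨T, hT1, hT2⟩ := hT ι K w u r d₀ D h s QQ MM lo hi ρ k hw hwf hd₀ hu hcell hM hev
    TT BB hTT hBB
  obtain ⟨M, B, hB, m4, m5, m7⟩ := absorb_lab hL hw hwf hQn hM reps T hr2 hT1
  have hcore := hC ι K w u d₀ D h s QQ MM lo hi ρ (d₀ / 2 ^ k) hw hwf hM
  set d := d₀ / 2 ^ k with hd
  -- the index of a piece
  have hex : ∀ P, ∃ κ : Set ℂ ⊕ Set H730.Pt, P ∈ Pks d K w M B →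
      κ ∈ M ∧ P = Pk d w B κ ∧ (P ∩ K).Nonempty := by
    intro P
    by_cases hP : P ∈ Pks d K w M B
    · obtain ⟨κ, h1, h2, h3⟩ := id hP
      exact ⟨κ, fun _ => ⟨h1, h2, h3⟩⟩
    · exact ⟨Sum.inr ∅, fun h' => absurd h' hP⟩
  choose kf hkf using hex
  have hns := hB.ns
  have hoff : ∀ P ∈ Pks d K w M B, (P \ K).Nonempty := fun P hP =>
    exists_off (hns.pc P hP).cpt (hns.pc P hP).nonempty (hns.pc P hP).fr
  -- values on a piece from the values on its core
  have hval : ∀ P ∈ Pks d K w M B, ∀ i, ∀ a b : ℝ,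
      (∀ z ∈ Rl d (B (kf P)), z ∉ K → u i z ∈ Icc a b) → oscS K (u i) P ≤ b - a := by
    intro P hP i a b hab
    obtain ⟨h1, h2, h3⟩ := hkf P hP
    obtain ⟨-, -, c3, c4, c5, -⟩ := hB.core h1
    refine oscS_le (hoff P hP) (piece_vals hK hw c4 c3 (hS i) (P := P) ?_ hab)
    calc P = Pk d w B (kf P) := h2
      _ ⊆ _ := c5
  have own1 : ∀ P Q, (Sum.elim some (fun _ => none) (kf P) : Option (Set ℂ)) = some Q →
      kf P = Sum.inl Q := by
    intro P Q hQ
    rcases hk : kf P with Q' | S'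
    · rw [hk] at hQ
      have : Q' = Q := by simpa using hQ
      rw [this]
    · rw [hk] at hQ; simp at hQ
  have own0 : ∀ P, (Sum.elim some (fun _ => none) (kf P) : Option (Set ℂ)) = none →
      ∃ S', kf P = Sum.inr S' := by
    intro P hP
    rcases hk : kf P with Q' | S'
    · rw [hk] at hP; simp at hP
    · exact ⟨S', rfl⟩
  refine ⟨Pks d K w M B, fun P => Sum.elim some (fun _ => none) (kf P), hns,
    fun y hy hyw => hB.cover ⟨hy, hyw⟩, ?_, ?_, ?_, ?_, ?_⟩
  · intro P hP Q hQ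
    obtain ⟨h1, -, -⟩ := hkf P hP
    rw [own1 P Q hQ] at h1
    exact (m4 Q h1).1
  · intro P hP P' hP' Q hQ hQ'
    rw [(hkf P hP).2.1, (hkf P' hP').2.1, own1 P Q hQ, own1 P' Q hQ']
  · intro P hP Q hQ i
    obtain ⟨h1, -, -⟩ := hkf P hP
    have hk := own1 P Q hQ
    rw [hk] at h1
    obtain ⟨hQM, hdis⟩ := m4 Q h1
    obtain ⟨a, ha⟩ := (hcore (B (Sum.inl Q)) ((hB.h1 _ h1).2.2)).2 Q hQM hdis i
    have := hval P hP i a (a + (hi i Q - lo i Q) + 5 * h) (by rw [hk]; exact ha)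
    linarith
  · intro P hP hP0 i
    obtain ⟨h1, -, -⟩ := hkf P hP
    obtain ⟨S', hk⟩ := own0 P hP0
    rw [hk] at h1
    obtain ⟨a, ha⟩ := (hcore (B (Sum.inr S')) ((hB.h1 _ h1).2.2)).1 (m5 S' h1) i
    have := hval P hP i a (a + 3 * h) (by rw [hk]; exact ha)
    linarith
  · intro R hR'
    have hcard : R.card ≤ (M.filter (fun k => ∃ S, k = Sum.inr S)).card := by
      refine Finset.card_le_card_of_injOn kf ?_ ?_
      · intro P hP
        obtain ⟨hPS, hP0⟩ := hR' P hP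
        obtain ⟨h1, -, -⟩ := hkf P hPS
        obtain ⟨S', hk⟩ := own0 P hP0
        rw [hk] at h1 ⊢
        exact Finset.mem_coe.2 (Finset.mem_filter.2 ⟨h1, S', rfl⟩)
      · intro P hP P' hP' he
        have e1 := (hkf P (hR' P hP).1).2.1
        have e2 := (hkf P' (hR' P' hP').1).2.1
        have he' : kf P = kf P' := he
        rw [e1, e2, he']
    calc R.card ≤ _ := hcard
      _ ≤ reps.card + T.card := m7
      _ ≤ _ := Nat.add_le_add hr1 hT2

end Vale.Agent.P116.AD
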