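import Vale.Agent.P116.H730.Abs

/-! Dictionary: `Cl` = equal or adjacent, `Cn` = connected under adjacency. -/

namespace Vale.Agent.P116.H730

/-- adjacency as in `Cl/LatDef` and `Cl/H805/Star` -/
abbrev Adj' (a b : Pt) : Prop :=
  a ≠ b ∧ |a.1 - b.1| ≤ 1 ∧ |a.2 - b.2| ≤ 1 ∧ |(a.1 - b.1) - (a.2 - b.2)| ≤ 1

theorem cl_iff {a b : Pt} : Cl a b ↔ a = b ∨ Adj' a b := by
  constructor
  · intro h
    by_cases e : a = b
    · exact Or.inl e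
    · right
      obtain ⟨h1, h2, h3, h4, h5, h6⟩ := h
      refine ⟨e, abs_le.2 ⟨?_, ?_⟩, abs_le.2 ⟨?_, ?_⟩, abs_le.2 ⟨?_, ?_⟩⟩ <;> omega
  · rintro (rfl | ⟨_, h1, h2, h3⟩)
    · exact Cl.refl a
    · rw [abs_le] at h1 h2 h3
      refine ⟨?_, ?_, ?_, ?_, ?_, ?_⟩ <;> omega

theorem adj_cl {a b : Pt} (h : Adj' a b) : Cl a b := cl_iff.2 (Or.inr h)

theorem rc_of {S : Set Pt} {a b : Pt} (ha : a ∈ S)
    (h : Relation.ReflTransGen (fun x y => y ∈ S ∧ Adj' x y) a b) : RC S a b := by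
  have key : RC S a b ∧ b ∈ S := by
    induction h with
    | refl => exact ⟨RC.refl _, ha⟩
    | tail _ h2 ih => exact ⟨ih.1.trans (RC.single (adj_cl h2.2) ih.2 h2.1), h2.1⟩
  exact key.1

theorem of_rc {S : Set Pt} {a b : Pt} (h : RC S a b) :
    Relation.ReflTransGen (fun x y => y ∈ S ∧ Adj' x y) a b := by
  induction h with
  | refl => exact Relation.ReflTransGen.refl
  | tail _ h2 ih =>
    rcases cl_iff.1 h2.1 with e | e
    · rw [← e]; exact ih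
    · exact ih.tail ⟨h2.2.2, e⟩

/-- `Cn` is `LConn` -/
theorem cn_iff {S : Set Pt} : Cn S ↔ ∀ a ∈ S, ∀ b ∈ S,
    Relation.ReflTransGen (fun x y => y ∈ S ∧ Adj' x y) a b :=
  ⟨fun h a ha b hb => of_rc (h a ha b hb), fun h a ha b hb => rc_of ha (h a ha b hb)⟩

/-- third vertex of the triangle `(v, s)`; its vertices are `v`, `v + (1,1)`, `tpp v s` -/
def tpp (v : Pt) (s : Bool) : Pt := if s then v + (0, 1) else v + (1, 0)

/-- a vertex of a three-coloured configuration is a vertex of a three-coloured triangle -/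
theorem tri_of {Q : Pt → Pt → Pt → Prop} (q1 : ∀ a b c, Q a b c → Q b a c)
    (q2 : ∀ a b c, Q a b c → Q a c b) {b x y : Pt} (h1 : Cl b x) (h2 : Cl b y) (h3 : Cl x y)
    (n1 : b ≠ x) (n2 : b ≠ y) (n3 : x ≠ y) (hQ : Q b x y) :
    ∃ (v : Pt) (s : Bool), (b = v ∨ b = v + (1, 1) ∨ b = tpp v s) ∧ Q v (v + (1, 1)) (tpp v s) := by
  obtain ⟨b1, b2⟩ := b
  obtain ⟨x1, x2⟩ := x
  obtain ⟨y1, y2⟩ := y
  have hb : ∀ (v : Pt) (s : Bool), (b1, b2) = v → (x1, x2) = v + (1, 1) → (y1, y2) = tpp v s →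
      ∃ (v : Pt) (s : Bool), ((b1, b2) = v ∨ (b1, b2) = v + (1, 1) ∨ (b1, b2) = tpp v s) ∧
        Q v (v + (1, 1)) (tpp v s) := by
    intro v s e1 e2 e3
    exact ⟨v, s, Or.inl e1, by rw [← e2, ← e3, ← e1]; exact hQ⟩
  have hb2 : ∀ (v : Pt) (s : Bool), (b1, b2) = v → (y1, y2) = v + (1, 1) → (x1, x2) = tpp v s →
      ∃ (v : Pt) (s : Bool), ((b1, b2) = v ∨ (b1, b2) = v + (1, 1) ∨ (b1, b2) = tpp v s) ∧
        Q v (v + (1, 1)) (tpp v s) := by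
    intro v s e1 e2 e3
    exact ⟨v, s, Or.inl e1, by rw [← e2, ← e3, ← e1]; exact q2 _ _ _ hQ⟩
  have hb3 : ∀ (v : Pt) (s : Bool), (x1, x2) = v → (b1, b2) = v + (1, 1) → (y1, y2) = tpp v s →
      ∃ (v : Pt) (s : Bool), ((b1, b2) = v ∨ (b1, b2) = v + (1, 1) ∨ (b1, b2) = tpp v s) ∧
        Q v (v + (1, 1)) (tpp v s) := by
    intro v s e1 e2 e3
    exact ⟨v, s, Or.inr (Or.inl e2), by rw [← e2, ← e3, ← e1]; exact q1 _ _ _ hQ⟩
  have hb4 : ∀ (v : Pt) (s : Bool), (y1, y2) = v → (b1, b2) = v + (1, 1) → (x1, x2) = tpp v s →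
      ∃ (v : Pt) (s : Bool), ((b1, b2) = v ∨ (b1, b2) = v + (1, 1) ∨ (b1, b2) = tpp v s) ∧
        Q v (v + (1, 1)) (tpp v s) := by
    intro v s e1 e2 e3
    exact ⟨v, s, Or.inr (Or.inl e2), by rw [← e2, ← e3, ← e1]; exact q1 _ _ _ (q2 _ _ _ hQ)⟩
  have hb5 : ∀ (v : Pt) (s : Bool), (x1, x2) = v → (y1, y2) = v + (1, 1) → (b1, b2) = tpp v s →
      ∃ (v : Pt) (s : Bool), ((b1, b2) = v ∨ (b1, b2) = v + (1, 1) ∨ (b1, b2) = tpp v s) ∧
        Q v (v + (1, 1)) (tpp v s) := by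
    intro v s e1 e2 e3
    exact ⟨v, s, Or.inr (Or.inr e3), by rw [← e2, ← e3, ← e1]; exact q2 _ _ _ (q1 _ _ _ hQ)⟩
  have hb6 : ∀ (v : Pt) (s : Bool), (y1, y2) = v → (x1, x2) = v + (1, 1) → (b1, b2) = tpp v s →
      ∃ (v : Pt) (s : Bool), ((b1, b2) = v ∨ (b1, b2) = v + (1, 1) ∨ (b1, b2) = tpp v s) ∧
        Q v (v + (1, 1)) (tpp v s) := by
    intro v s e1 e2 e3
    exact ⟨v, s, Or.inr (Or.inr e3), by
      rw [← e2, ← e3, ← e1]; exact q2 _ _ _ (q1 _ _ _ (q2 _ _ _ hQ))⟩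
  obtain ⟨a1, a2, a3, a4, a5, a6⟩ := h1
  obtain ⟨c1, c2, c3, c4, c5, c6⟩ := h2
  obtain ⟨d1, d2, d3, d4, d5, d6⟩ := h3
  simp only at a1 a2 a3 a4 a5 a6 c1 c2 c3 c4 c5 c6 d1 d2 d3 d4 d5 d6
  simp only [ne_eq, Prod.mk.injEq, not_and] at n1 n2 n3
  have hx : (x1 = b1 + 1 ∧ x2 = b2) ∨ (x1 = b1 ∧ x2 = b2 + 1) ∨ (x1 = b1 + 1 ∧ x2 = b2 + 1) ∨
      (x1 = b1 - 1 ∧ x2 = b2) ∨ (x1 = b1 ∧ x2 = b2 - 1) ∨ (x1 = b1 - 1 ∧ x2 = b2 - 1) := by
    omega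
  rcases hx with ⟨hx1, hx2⟩ | ⟨hx1, hx2⟩ | ⟨hx1, hx2⟩ | ⟨hx1, hx2⟩ | ⟨hx1, hx2⟩ | ⟨hx1, hx2⟩
  · rcases (by omega : (y1 = b1 + 1 ∧ y2 = b2 + 1) ∨ (y1 = b1 ∧ y2 = b2 - 1)) with ⟨e, f⟩ | ⟨e, f⟩
    · exact hb2 (b1, b2) false rfl (by ext <;> simp <;> omega) (by ext <;> simp [tpp] <;> omega)
    · exact hb6 (y1, y2) true rfl (by ext <;> simp <;> omega) (by ext <;> simp [tpp] <;> omega)
  · rcases (by omega : (y1 = b1 + 1 ∧ y2 = b2 + 1) ∨ (y1 = b1 - 1 ∧ y2 = b2)) with ⟨e, f⟩ | ⟨e, f⟩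
    · exact hb2 (b1, b2) true rfl (by ext <;> simp <;> omega) (by ext <;> simp [tpp] <;> omega)
    · exact hb6 (y1, y2) false rfl (by ext <;> simp <;> omega) (by ext <;> simp [tpp] <;> omega)
  · rcases (by omega : (y1 = b1 + 1 ∧ y2 = b2) ∨ (y1 = b1 ∧ y2 = b2 + 1)) with ⟨e, f⟩ | ⟨e, f⟩
    · exact hb (b1, b2) false rfl (by ext <;> simp <;> omega) (by ext <;> simp [tpp] <;> omega)
    · exact hb (b1, b2) true rfl (by ext <;> simp <;> omega) (by ext <;> simp [tpp] <;> omega)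
  · rcases (by omega : (y1 = b1 ∧ y2 = b2 + 1) ∨ (y1 = b1 - 1 ∧ y2 = b2 - 1)) with ⟨e, f⟩ | ⟨e, f⟩
    · exact hb5 (x1, x2) false rfl (by ext <;> simp <;> omega) (by ext <;> simp [tpp] <;> omega)
    · exact hb4 (y1, y2) true rfl (by ext <;> simp <;> omega) (by ext <;> simp [tpp] <;> omega)
  · rcases (by omega : (y1 = b1 - 1 ∧ y2 = b2 - 1) ∨ (y1 = b1 + 1 ∧ y2 = b2)) with ⟨e, f⟩ | ⟨e, f⟩
    · exact hb4 (y1, y2) false rfl (by ext <;> simp <;> omega) (by ext <;> simp [tpp] <;> omega)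
    · exact hb5 (x1, x2) true rfl (by ext <;> simp <;> omega) (by ext <;> simp [tpp] <;> omega)
  · rcases (by omega : (y1 = b1 - 1 ∧ y2 = b2) ∨ (y1 = b1 ∧ y2 = b2 - 1)) with ⟨e, f⟩ | ⟨e, f⟩
    · exact hb3 (x1, x2) true rfl (by ext <;> simp <;> omega) (by ext <;> simp [tpp] <;> omega)
    · exact hb3 (x1, x2) false rfl (by ext <;> simp <;> omega) (by ext <;> simp [tpp] <;> omega)

variable {ι C : Type*} {lab : Pt → Option (ι ⊕ C)}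

/-- bad triangle: three different labels, none special -/
def BT (lab : Pt → Option (ι ⊕ C)) (t : Pt × Bool) : Prop :=
  lab t.1 ≠ lab (t.1 + (1, 1)) ∧ lab t.1 ≠ lab (tpp t.1 t.2) ∧
    lab (t.1 + (1, 1)) ≠ lab (tpp t.1 t.2) ∧ ∀ i, lab t.1 ≠ some (Sum.inl i) ∧
      lab (t.1 + (1, 1)) ≠ some (Sum.inl i) ∧ lab (tpp t.1 t.2) ≠ some (Sum.inl i)

theorem TL_tri {b : Pt} (h : TL lab b) :
    ∃ t : Pt × Bool, BT lab t ∧ (b = t.1 ∨ b = t.1 + (1, 1) ∨ b = tpp t.1 t.2) := by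
  obtain ⟨x, y, h1, h2, h3, n1, n2, n3, s1, s2, s3⟩ := h
  obtain ⟨v, s, hb, hq1, hq2, hq3, hq4⟩ := tri_of
    (Q := fun p q r => lab p ≠ lab q ∧ lab p ≠ lab r ∧ lab q ≠ lab r ∧ ∀ i,
      lab p ≠ some (Sum.inl i) ∧ lab q ≠ some (Sum.inl i) ∧ lab r ≠ some (Sum.inl i))
    (by
      rintro p q r ⟨a1, a2, a3, a4⟩
      exact ⟨a1.symm, a3, a2, fun i => ⟨(a4 i).2.1, (a4 i).1, (a4 i).2.2⟩⟩)
    (by
      rintro p q r ⟨a1, a2, a3, a4⟩
      exact ⟨a2, a1, a3.symm, fun i => ⟨(a4 i).1, (a4 i).2.2, (a4 i).2.1⟩⟩)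
    h1 h2 h3 (fun e => n1 (by rw [e])) (fun e => n2 (by rw [e])) (fun e => n3 (by rw [e]))
    ⟨n1, n2, n3, fun i => ⟨s1 i, s2 i, s3 i⟩⟩
  exact ⟨(v, s), ⟨hq1, hq2, hq3, hq4⟩, hb⟩

open Classical in
/-- the vertices of the bad triangles in `T` -/
noncomputable def vts (T : Finset (Pt × Bool)) : Finset Pt :=
  T.image (fun t => t.1) ∪ T.image (fun t => t.1 + (1, 1)) ∪ T.image (fun t => tpp t.1 t.2)

open Classical in
theorem vts_card (T : Finset (Pt × Bool)) : (vts T).card ≤ 3 * T.card := by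
  have h1 := Finset.card_image_le (s := T) (f := fun t : Pt × Bool => t.1)
  have h2 := Finset.card_image_le (s := T) (f := fun t : Pt × Bool => t.1 + (1, 1))
  have h3 := Finset.card_image_le (s := T) (f := fun t : Pt × Bool => tpp t.1 t.2)
  have h4 := Finset.card_union_le (T.image (fun t => t.1)) (T.image (fun t => t.1 + (1, 1)))
  have h5 := Finset.card_union_le (T.image (fun t => t.1) ∪ T.image (fun t => t.1 + (1, 1)))
    (T.image (fun t => tpp t.1 t.2))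
  unfold vts
  omega

theorem TL_vts {T : Finset (Pt × Bool)} (hT : ∀ t, BT lab t → t ∈ T) {b : Pt} (h : TL lab b) :
    b ∈ vts T := by
  classical
  obtain ⟨t, ht, hb⟩ := TL_tri h
  have := hT t ht
  unfold vts
  rcases hb with rfl | rfl | rfl
  · exact Finset.mem_union_left _ (Finset.mem_union_left _ (Finset.mem_image_of_mem _ this))
  · exact Finset.mem_union_left _ (Finset.mem_union_right _
      (Finset.mem_image_of_mem (fun t : Pt × Bool => t.1 + (1, 1)) this))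
  · exact Finset.mem_union_right _ (Finset.mem_image_of_mem (fun t : Pt × Bool => tpp t.1 t.2) this)

end Vale.Agent.P116.H730
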