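import Vale.Agent.P116.H730.Lat

/-! Fills of finite connected sets in a host `V`, maximal classes, tri points. -/

namespace Vale.Agent.P116.H730

/-- the part of the complement of `B` joined to the outside of `V` -/
def Yc (V B : Set Pt) : Set Pt := {y | y ∉ B ∧ ∃ o, o ∉ V ∧ RC Bᶜ y o}

/-- `B` with its holes -/
def fl (V B : Set Pt) : Set Pt := (Yc V B)ᶜ

variable {V B B' : Set Pt}

theorem sub_fl : B ⊆ fl V B := fun _ hb h => h.1 hb

theorem fl_sub (hB : B ⊆ V) : fl V B ⊆ V := by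
  intro x hx
  by_contra h
  exact hx ⟨fun hb => h (hB hb), x, h, RC.refl _⟩

theorem Yc_step {y z : Pt} (hy : y ∈ Yc V B) (hz : z ∉ B) (h : Cl y z) : z ∈ Yc V B := by
  obtain ⟨h1, o, ho, hr⟩ := hy
  exact ⟨hz, o, ho, (RC.single h.symm hz h1).trans hr⟩

theorem Yc_rc {y z : Pt} (hy : y ∈ Yc V B) (h : RC Bᶜ y z) : z ∈ Yc V B := by
  induction h with
  | refl => exact hy
  | tail _ h2 ih => exact Yc_step ih h2.2.2 h2.1

theorem Yc_cn (hB : B ⊆ V) (hV : Cn Vᶜ) : Cn (Yc V B) := by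
  have key : ∀ y ∈ Yc V B, ∀ z, RC Bᶜ y z → RC (Yc V B) y z := by
    intro y hy z hz
    exact hz.restrict (fun w hw => Yc_rc hy hw)
  intro x hx y hy
  obtain ⟨_, o, ho, h1⟩ := id hx
  obtain ⟨_, o', ho', h2⟩ := id hy
  have h3 : RC Bᶜ o o' := (hV o ho o' ho').mono (Set.compl_subset_compl.2 hB)
  exact key x hx y ((h1.trans h3).trans h2.symm)

/-- every point of the fill is joined to `B` inside the fill -/
theorem fl_rc (hVn : ∃ o, o ∉ V) {x : Pt} (hx : x ∈ fl V B) : ∃ b ∈ B, RC (fl V B) x b := by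
  classical
  obtain ⟨o, ho⟩ := hVn
  by_contra hcon
  push Not at hcon
  have key : ∀ z, RC Set.univ x z → RC Bᶜ x z ∧ z ∉ B ∧ z ∈ fl V B ∧ RC (fl V B) x z := by
    intro z hz
    induction hz with
    | refl =>
      have hxB : x ∉ B := fun h => hcon x h (RC.refl _)
      exact ⟨RC.refl _, hxB, hx, RC.refl _⟩
    | @tail b c h1 h2 ih =>
      obtain ⟨i1, i2, i3, i4⟩ := ih
      have hcfl : c ∈ fl V B := by
        intro hc
        exact i3 (Yc_step hc i2 h2.1.symm)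
      have i5 : RC (fl V B) x c := i4.trans (RC.single h2.1 i3 hcfl)
      have hcB : c ∉ B := fun h => hcon c h i5
      exact ⟨i1.trans (RC.single h2.1 i2 hcB), hcB, hcfl, i5⟩
  obtain ⟨k1, k2, k3, k4⟩ := key o (cn_univ x trivial o trivial)
  exact k3 ⟨k2, o, ho, RC.refl _⟩

theorem fl_cn (hVn : ∃ o, o ∉ V) (hB : Cn B) : Cn (fl V B) := by
  intro x hx y hy
  obtain ⟨b, hb, h1⟩ := fl_rc hVn hx
  obtain ⟨c, hc, h2⟩ := fl_rc hVn hy
  exact (h1.trans ((hB b hb c hc).mono sub_fl)).trans h2.symm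

/-- an edge from the fill to its complement starts in `B` -/
theorem fl_edge {x y : Pt} (hx : x ∈ fl V B) (hy : y ∉ fl V B) (h : Cl x y) : x ∈ B := by
  by_contra hb
  have hy' : y ∈ Yc V B := by
    by_contra h'
    exact hy h'
  exact hx (Yc_step hy' hb h.symm)

theorem fl_mono_of (h : ∀ b ∈ B', b ∈ fl V B) : fl V B' ⊆ fl V B := by
  intro x hx hy
  apply hx
  have hB' : ∀ z ∈ Yc V B, z ∉ B' := fun z hz hb => h z hb hz
  obtain ⟨h1, o, ho, hr⟩ := id hy
  refine ⟨hB' x hy, o, ho, hr.restrict (fun z hz => hB' z (Yc_rc hy hz))⟩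

/-- disjoint connected sets: nested or disjoint fills -/
theorem fl_nest (hVn : ∃ o, o ∉ V) (hB : Cn B) (hB' : Cn B') (hd : Disjoint B B') :
    fl V B' ⊆ fl V B ∨ fl V B ⊆ fl V B' ∨ Disjoint (fl V B) (fl V B') := by
  have alt : ∀ {A C : Set Pt}, Cn C → Disjoint A C → (∀ b ∈ C, b ∈ fl V A) ∨ (∀ b ∈ C, b ∈ Yc V A) := by
    intro A C hC hAC
    by_cases h : ∃ c ∈ C, c ∈ Yc V A
    · right
      obtain ⟨c, hc, hc'⟩ := h
      intro b hb
      exact Yc_rc hc' ((hC c hc b hb).mono (fun z hz hz' => (Set.disjoint_left.1 hAC) hz' hz))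
    · left
      push Not at h
      exact h
  rcases alt hB' hd with h | h
  · exact Or.inl (fl_mono_of h)
  rcases alt hB hd.symm with h' | h'
  · exact Or.inr (Or.inl (fl_mono_of h'))
  right; right
  rw [Set.disjoint_left]
  intro x hx
  obtain ⟨b, hb, hr⟩ := fl_rc hVn hx
  have : x ∈ Yc V B' := by
    refine Yc_rc (h' b hb) (hr.symm.mono ?_)
    intro z hz hz'
    exact hz (h z hz')
  exact fun h2 => h2 this

/-! ### classes -/

variable {κ : Type*}

/-- class -/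
abbrev Bc (cls : Pt → Option κ) (k : κ) : Set Pt := {v | cls v = some k}

/-- a labelling by connected classes inside a finite host `W` with connected complement -/
structure Cls (W : Set Pt) (cls : Pt → Option κ) : Prop where
  fin : W.Finite
  co : Cn Wᶜ
  sub : ∀ v, cls v ≠ none → v ∈ W
  cc : ∀ k, Cn (Bc cls k)

/-- maximal classes -/
def Mx (W : Set Pt) (cls : Pt → Option κ) (k : κ) : Prop :=
  (Bc cls k).Nonempty ∧ ∀ k', k' ≠ k → ¬ (Bc cls k ⊆ fl W (Bc cls k'))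

variable {W : Set Pt} {cls : Pt → Option κ}

theorem Cls.bsub (h : Cls W cls) (k : κ) : Bc cls k ⊆ W := by
  intro v hv
  apply h.sub
  rw [show cls v = some k from hv]
  simp

theorem Cls.out (h : Cls W cls) : ∃ o, o ∉ W := h.fin.exists_notMem

theorem Bc_disj {k k' : κ} (h : k ≠ k') : Disjoint (Bc cls k) (Bc cls k') := by
  rw [Set.disjoint_left]
  intro x hx hx'
  have e1 : cls x = some k := hx
  have e2 : cls x = some k' := hx'
  rw [e1] at e2
  exact h (Option.some.inj e2)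

theorem Cls.fl_fin (h : Cls W cls) (k : κ) : (fl W (Bc cls k)).Finite :=
  h.fin.subset (fl_sub (h.bsub k))

/-- two different classes do not have the same fill -/
theorem Cls.fl_inj (h : Cls W cls) {k k' : κ} (hk : (Bc cls k).Nonempty)
    (he : fl W (Bc cls k) = fl W (Bc cls k')) : k = k' := by
  obtain ⟨b, hb⟩ := hk
  obtain ⟨o, ho⟩ := h.out
  obtain ⟨x, y, hx, hy, hxy⟩ := exists_edge (X := fl W (Bc cls k)) (sub_fl hb)
    (fun hh => ho (fl_sub (h.bsub k) hh))
  have h1 : cls x = some k := fl_edge hx hy hxy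
  rw [he] at hx hy
  have h2 : cls x = some k' := fl_edge hx hy hxy
  rw [h1] at h2
  exact Option.some.inj h2

/-- every labelled point is in the fill of a maximal class -/
theorem Cls.cover (h : Cls W cls) {v : Pt} (hv : cls v ≠ none) :
    ∃ k, Mx W cls k ∧ v ∈ fl W (Bc cls k) := by
  classical
  obtain ⟨k0, hk0⟩ : ∃ k, cls v = some k := Option.ne_none_iff_exists'.1 hv
  have hex : ∃ n k, (Bc cls k).Nonempty ∧ v ∈ fl W (Bc cls k) ∧
      (fl W (Bc cls k)).ncard = n := ⟨_, k0, ⟨v, hk0⟩, sub_fl hk0, rfl⟩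
  have hbd : ∀ n, (∃ k, (Bc cls k).Nonempty ∧ v ∈ fl W (Bc cls k) ∧
      (fl W (Bc cls k)).ncard = n) → n ≤ W.ncard := by
    rintro n ⟨k, _, _, rfl⟩
    exact Set.ncard_le_ncard (fl_sub (h.bsub k)) h.fin
  obtain ⟨n, hn⟩ := hex
  have hspec := Nat.findGreatest_spec (P := fun n => ∃ k, (Bc cls k).Nonempty ∧
      v ∈ fl W (Bc cls k) ∧ (fl W (Bc cls k)).ncard = n) (hbd n hn) hn
  obtain ⟨k, hk1, hk2, hk3⟩ := hspec
  refine ⟨k, ⟨hk1, ?_⟩, hk2⟩
  intro k' hk' hsub
  have hs1 : fl W (Bc cls k) ⊆ fl W (Bc cls k') := fl_mono_of hsub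
  have hne : fl W (Bc cls k) ≠ fl W (Bc cls k') :=
    fun he => hk' (h.fl_inj hk1 he).symm
  have hlt : (fl W (Bc cls k)).ncard < (fl W (Bc cls k')).ncard :=
    Set.ncard_lt_ncard (lt_of_le_of_ne hs1 hne) (h.fl_fin k')
  have hne' : (Bc cls k').Nonempty := by
    by_contra hemp
    rw [Set.not_nonempty_iff_eq_empty] at hemp
    obtain ⟨b, hb, -⟩ := fl_rc (V := W) (B := Bc cls k') h.out (hs1 hk2)
    rw [hemp] at hb
    exact hb
  have hle := Nat.le_findGreatest (P := fun n => ∃ k, (Bc cls k).Nonempty ∧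
      v ∈ fl W (Bc cls k) ∧ (fl W (Bc cls k)).ncard = n)
      (n := W.ncard) (m := (fl W (Bc cls k')).ncard)
      (hbd _ ⟨k', hne', hs1 hk2, rfl⟩) ⟨k', hne', hs1 hk2, rfl⟩
  omega

/-- fills of different maximal classes are disjoint -/
theorem Cls.disj (h : Cls W cls) {k k' : κ} (hk : Mx W cls k) (hk' : Mx W cls k') (hne : k ≠ k') :
    Disjoint (fl W (Bc cls k)) (fl W (Bc cls k')) := by
  rcases fl_nest h.out (h.cc k) (h.cc k') (Bc_disj hne) with h1 | h1 | h1
  · exact absurd (sub_fl.trans h1) (hk'.2 k hne)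
  · exact absurd (sub_fl.trans h1) (hk.2 k' hne.symm)
  · exact h1

theorem Cls.fl_cn (h : Cls W cls) (k : κ) : Cn (fl W (Bc cls k)) := H730.fl_cn h.out (h.cc k)

theorem Cls.fl_co (h : Cls W cls) (k : κ) : Cn (fl W (Bc cls k))ᶜ := by
  rw [fl, compl_compl]
  exact Yc_cn (h.bsub k) h.co

/-- `b` is a corner of a triangle with three different labels -/
def TP (cls : Pt → Option κ) (b : Pt) : Prop :=
  ∃ x y, Cl b x ∧ Cl b y ∧ Cl x y ∧ cls b ≠ cls x ∧ cls b ≠ cls y ∧ cls x ≠ cls y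

/-- a maximal class is isolated from the other labelled points, or contains a tri point -/
theorem Cls.tri (h : Cls W cls) {k : κ} (hk : Mx W cls k) :
    (∀ x ∈ fl W (Bc cls k), ∀ y, y ∉ fl W (Bc cls k) → Cl x y → cls y = none) ∨
      ∃ b, cls b = some k ∧ TP cls b := by
  classical
  by_contra hcon
  push Not at hcon
  obtain ⟨⟨x0, hx0, y0, hy0, hxy0, hy0V⟩, hT⟩ := hcon
  have hXc : Cn (fl W (Bc cls k)) := h.fl_cn k
  have hYc : Cn (fl W (Bc cls k))ᶜ := h.fl_co k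
  have hXb : ∀ x y, x ∈ fl W (Bc cls k) → y ∉ fl W (Bc cls k) → Cl x y →
      cls x = some k := fun x y hx hy hxy => fl_edge hx hy hxy
  have hYb : ∀ y, y ∉ fl W (Bc cls k) → cls y ≠ some k := fun y hy he => hy (sub_fl he)
  have key := iface hXc hYc (fun _ y => cls y = cls y0)
    (fun x x' y _ _ _ _ _ _ hp => hp)
    (fun x y y' hx hy hy' hyy hxy hxy' hp => by
      by_contra hne
      refine hT x (hXb x y hx hy hxy) ⟨y, y', hxy, hxy', hyy, ?_, ?_, ?_⟩
      · rw [hXb x y hx hy hxy]; exact (hYb y hy).symm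
      · rw [hXb x y hx hy hxy]; exact (hYb y' hy').symm
      · rw [hp]; exact fun e => hne e.symm)
    hx0 hy0 hxy0 rfl
  -- the label of `y0`
  obtain ⟨k', hk'⟩ : ∃ k', cls y0 = some k' := Option.ne_none_iff_exists'.1 hy0V
  have hkk : k' ≠ k := by
    rintro rfl
    exact hYb y0 hy0 hk'
  apply hk.2 k' hkk
  intro b hb hbY
  obtain ⟨_, o, ho, hr⟩ := hbY
  obtain ⟨x, y, hx1, hy1, hx2, hy2, hxy⟩ := hr.cross (X := fl W (Bc cls k)) (sub_fl hb)
    (fun hh => ho (fl_sub (h.bsub k) hh))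
  exact hy1 (show cls y = some k' by rw [key x hx2 y hy2 hxy, hk'])

/-- the count: maximal classes are at most (components of the labelled set) + (tri points) -/
theorem Cls.count (h : Cls W cls) (R : Finset κ) (hR : ∀ k ∈ R, Mx W cls k)
    (reps T : Finset Pt) (hreps : ∀ v, cls v ≠ none → ∃ r ∈ reps, RC {v | cls v ≠ none} v r)
    (hT : ∀ b, (∃ k ∈ R, cls b = some k) → TP cls b → b ∈ T) :
    R.card ≤ reps.card + T.card := by
  classical
  have hex : ∀ k ∈ R, (∃ r ∈ reps, r ∈ fl W (Bc cls k)) ∨ ∃ b ∈ T, cls b = some k := by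
    intro k hk
    rcases h.tri (hR k hk) with hi | ⟨b, hb, hbT⟩
    · left
      obtain ⟨v, hv⟩ := (hR k hk).1
      have hv' : cls v = some k := hv
      obtain ⟨r, hr, hvr⟩ := hreps v (by rw [hv']; simp)
      refine ⟨r, hr, ?_⟩
      by_contra hrf
      obtain ⟨a, b, ha, hb, haf, hbf, hab⟩ := hvr.cross (X := fl W (Bc cls k)) (sub_fl hv) hrf
      exact hb (hi a haf b hbf hab)
    · right
      exact ⟨b, hT b ⟨k, hk, hb⟩ hbT, hb⟩
  have hex' : ∀ k : κ, ∃ z : Pt ⊕ Pt, k ∈ R → z ∈ reps.disjSum T ∧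
      ((∃ r, z = Sum.inl r ∧ r ∈ fl W (Bc cls k)) ∨ (∃ b, z = Sum.inr b ∧ cls b = some k)) := by
    intro k
    by_cases hk : k ∈ R
    · rcases hex k hk with ⟨r, hr, hr'⟩ | ⟨b, hb, hb'⟩
      · exact ⟨Sum.inl r, fun _ => ⟨Finset.inl_mem_disjSum.2 hr, Or.inl ⟨r, rfl, hr'⟩⟩⟩
      · exact ⟨Sum.inr b, fun _ => ⟨Finset.inr_mem_disjSum.2 hb, Or.inr ⟨b, rfl, hb'⟩⟩⟩
    · exact ⟨Sum.inl 0, fun hk' => absurd hk' hk⟩
  choose g hg using hex'
  have hle : R.card ≤ (reps.disjSum T).card := by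
    refine Finset.card_le_card_of_injOn g (fun k hk => (hg k hk).1) ?_
    intro k hk k' hk' he
    by_contra hne
    rcases (hg k hk).2 with ⟨r, e1, hr⟩ | ⟨b, e1, hb⟩ <;>
      rcases (hg k' hk').2 with ⟨r', e2, hr'⟩ | ⟨b', e2, hb'⟩
    · rw [e1, e2] at he
      have := Sum.inl.inj he
      subst this
      exact Set.disjoint_left.1 (h.disj (hR k hk) (hR k' hk') hne) hr hr'
    · rw [e1, e2] at he; cases he
    · rw [e1, e2] at he; cases he
    · rw [e1, e2] at he
      have := Sum.inr.inj he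
      subst this
      rw [hb] at hb'
      exact hne (Option.some.inj hb')
  rwa [Finset.card_disjSum] at hle

end Vale.Agent.P116.H730
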