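import Vale.Agent.P116.H730.Fin7
import Vale.Agent.P116.AD.H944.Tri
import Vale.Agent.P116.AD.H155.Row
import Vale.Agent.P116.AD.H592.Rep

/-! # P116, block [7]: RowFin without hypotheses -/

namespace Vale.Agent.P116.AD

theorem rowFin_all : RowFin := rowFin H944.rowLab H592.rowRep H944.rowTri H155.rowCore

end Vale.Agent.P116.AD
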