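import Vale.Agent.P116.H730.Dict
import Vale.Agent.P116.Cl.LatDef

/-! `finLemma : FinLemma` (helper483's literal Prop) from `absorb`. -/

namespace Vale.Agent.P116.H730

open Classical

/-- a connected one-label set meeting a piece is inside the piece -/
theorem node_in {ι C : Type*} {lab : Pt → Option (ι ⊕ C)} {W B R : Set Pt}
    (hB : ∀ v ∈ B, ∀ w, Cl v w → lab v = lab w → w ∈ B) (hR : Cn R)
    (hl : ∀ a ∈ R, ∀ b ∈ R, lab a = lab b) {r : Pt} (hr : r ∈ R) (hrB : r ∈ fl W B) :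
    R ⊆ fl W B := by
  by_cases h : ∃ a ∈ R, a ∈ B
  · obtain ⟨a, ha, haB⟩ := h
    have key : ∀ b, RC R a b → b ∈ B := by
      intro b hb
      induction hb with
      | refl => exact haB
      | tail _ h2 ih => exact hB _ ih _ h2.1 (hl _ h2.2.1 _ h2.2.2)
    intro b hb
    exact sub_fl (key b (hR a ha b hb))
  · push Not at h
    intro b hb hbY
    exact hrB (Yc_rc hbY ((hR b hb r hr).mono (fun z hz hz' => h z hz hz')))

theorem outer_eq {W X : Set Pt} (hW : W.Finite) (hco : Cn Wᶜ) (hX : X ⊆ W) :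
    Cl.Outer X = Yc W X := by
  ext v
  constructor
  · rintro ⟨h1, h2⟩
    obtain ⟨v', hv', hr⟩ := h2 W hW
    exact ⟨h1, v', hv', rc_of (S := Xᶜ) h1 hr⟩
  · rintro ⟨h1, o, ho, hr⟩
    refine ⟨h1, ?_⟩
    intro D hD
    obtain ⟨v', hv'⟩ := (hD.union hW).exists_notMem
    have h3 : v' ∉ D := fun h => hv' (Or.inl h)
    have h4 : v' ∉ W := fun h => hv' (Or.inr h)
    refine ⟨v', h3, ?_⟩
    exact of_rc (S := Xᶜ) (hr.trans ((hco o ho v' h4).mono (Set.compl_subset_compl.2 hX)))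

theorem fill_eq {W X : Set Pt} (hW : W.Finite) (hco : Cn Wᶜ) (hX : X ⊆ W) :
    Cl.fill X = fl W X := by
  unfold Cl.fill fl
  rw [outer_eq hW hco hX]

end Vale.Agent.P116.H730

namespace Vale.Agent.P116.Cl

open H730 Classical

theorem finLemma : FinLemma := by
  intro Γ β W Q col _ hWf hWn hWc hWco hQ hQd
  have hWc' : Cn W := H730.cn_iff.2 hWc
  have hWco' : Cn Wᶜ := H730.cn_iff.2 hWco
  set lab : Pt → Option (β ⊕ Γ) := fun v =>
    if v ∈ W then (if h : ∃ q, v ∈ Q q then some (Sum.inl (Classical.choose h))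
      else some (Sum.inr (col v))) else none with hlab
  have l0 : ∀ v, lab v ≠ none ↔ v ∈ W := by
    intro v
    simp only [hlab]
    by_cases hv : v ∈ W
    · rw [if_pos hv]
      by_cases h : ∃ q, v ∈ Q q
      · rw [dif_pos h]; simp [hv]
      · rw [dif_neg h]; simp [hv]
    · rw [if_neg hv]; simp [hv]
  have lq : ∀ v q, lab v = some (Sum.inl q) ↔ v ∈ Q q := by
    intro v q
    simp only [hlab]
    constructor
    · intro h
      split_ifs at h with h1 h2
      · have hs := Classical.choose_spec h2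
        have := Sum.inl.inj (Option.some.inj h)
        rwa [this] at hs
      · cases Option.some.inj h
    · intro h
      have h1 : v ∈ W := (hQ q).2.2 h
      have h2 : ∃ q, v ∈ Q q := ⟨q, h⟩
      rw [if_pos h1, dif_pos h2]
      have hs := Classical.choose_spec h2
      by_cases he : Classical.choose h2 = q
      · rw [he]
      · exact absurd h (Set.disjoint_left.1 (hQd _ _ he) hs)
  have lc : ∀ v c, lab v = some (Sum.inr c) ↔ (v ∈ W ∧ (∀ q, v ∉ Q q) ∧ col v = c) := by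
    intro v c
    simp only [hlab]
    constructor
    · intro h
      split_ifs at h with h1 h2
      · cases Option.some.inj h
      · push Not at h2
        exact ⟨h1, h2, Sum.inr.inj (Option.some.inj h)⟩
    · rintro ⟨h1, h2, h3⟩
      rw [if_pos h1, dif_neg (by push Not; exact h2), h3]
  have ln : ∀ v, lab v = none ↔ v ∉ W := fun v => by rw [← l0 v]; tauto
  obtain ⟨w0, hw0⟩ := hWn
  -- bad triangles
  have hbt : ∀ t : L × Bool, BT lab t ↔ BadTri W Q col t := by
    rintro ⟨v, s⟩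
    have e1 : ∀ a : L, (∀ q, a ∉ Q q) → lab a = (ecol W col a).map Sum.inr := by
      intro a ha
      unfold ecol
      by_cases haW : a ∈ W
      · rw [(lc a (col a)).2 ⟨haW, ha, rfl⟩, if_pos haW]; rfl
      · rw [(ln a).2 haW, if_neg haW]; rfl
    have inj : Function.Injective (Option.map (Sum.inr : Γ → β ⊕ Γ)) :=
      Option.map_injective Sum.inr_injective
    have etp : tpp v s = tp v s := rfl
    constructor
    · rintro ⟨h1, h2, h3, h4⟩
      have n1 : ∀ q, v ∉ Q q := fun q hq => (h4 q).1 ((lq _ _).2 hq)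
      have n2 : ∀ q, v + (1, 1) ∉ Q q := fun q hq => (h4 q).2.1 ((lq _ _).2 hq)
      have n3 : ∀ q, tp v s ∉ Q q := fun q hq => (h4 q).2.2 ((lq _ _).2 hq)
      simp only at h1 h2 h3
      rw [e1 _ n1, e1 _ n2] at h1
      rw [e1 _ n1, etp, e1 _ n3] at h2
      rw [e1 _ n2, etp, e1 _ n3] at h3
      exact ⟨fun q => ⟨n1 q, n2 q, n3 q⟩, fun h => h1 (by rw [h]), fun h => h2 (by rw [h]),
        fun h => h3 (by rw [h])⟩
    · rintro ⟨h4, h1, h2, h3⟩
      have n1 : ∀ q, v ∉ Q q := fun q => (h4 q).1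
      have n2 : ∀ q, v + (1, 1) ∉ Q q := fun q => (h4 q).2.1
      have n3 : ∀ q, tp v s ∉ Q q := fun q => (h4 q).2.2
      refine ⟨?_, ?_, ?_, ?_⟩
      · simp only; rw [e1 _ n1, e1 _ n2]; exact fun h => h1 (inj h)
      · simp only; rw [e1 _ n1, etp, e1 _ n3]; exact fun h => h2 (inj h)
      · simp only; rw [e1 _ n2, etp, e1 _ n3]; exact fun h => h3 (inj h)
      · intro q
        exact ⟨fun h => n1 q ((lq _ _).1 h), fun h => n2 q ((lq _ _).1 h),
          fun h => n3 q ((lq _ _).1 h)⟩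
  have hfin : {t : L × Bool | BadTri W Q col t}.Finite := by
    have h1 : ({v : L | v ∈ W} ∪ {v : L | v + (1, 1) ∈ W}).Finite := by
      refine hWf.union ?_
      exact hWf.preimage (fun a _ b _ h => add_right_cancel h)
    refine (h1.prod (Set.finite_univ (α := Bool))).subset ?_
    rintro ⟨v, s⟩ ⟨_, h1, _, _⟩
    refine ⟨?_, trivial⟩
    by_contra hc
    simp only [Set.mem_union, Set.mem_setOf_eq, not_or] at hc
    apply h1
    unfold ecol
    rw [if_neg hc.1, if_neg hc.2]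
  obtain ⟨M, B, m1, m2, m3, m4, m5, m6, m7⟩ := absorb (lab := lab) hWf hWco'
    (fun v hv => (l0 v).1 hv)
    (fun i => by
      have : {v | lab v = some (Sum.inl i)} = Q i := by ext v; exact lq v i
      rw [this]
      exact H730.cn_iff.2 (hQ i).2.1)
    {w0} (vts hfin.toFinset)
    (fun v hv => ⟨w0, Finset.mem_singleton_self _, by
      have : {v | lab v ≠ none} = W := by ext v; exact l0 v
      rw [this]
      exact hWc' v ((l0 v).1 hv) w0 hw0⟩)
    (fun b hb => TL_vts (fun t ht => by simpa using (hbt t).1 ht) hb)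
  have hsub : ∀ k ∈ M, B k ⊆ W := fun k hk v hv => (l0 v).1 ((m1 k hk).2.2 v hv)
  have hfill : ∀ k ∈ M, fill (B k) = fl W (B k) := fun k hk =>
    fill_eq hWf hWco' (hsub k hk)
  have hout : ∃ o, o ∉ W := hWf.exists_notMem
  have hq : ∀ q, q ∈ M.preimage Sum.inl Sum.inl_injective.injOn ↔ Sum.inl q ∈ M := by
    intro q; exact Finset.mem_preimage
  have hr : ∀ X, X ∈ (M.filter (fun k => ∃ S, k = Sum.inr S)).image B ↔
      ∃ S, Sum.inr S ∈ M ∧ B (Sum.inr S) = X := by
    intro X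
    simp only [Finset.mem_image, Finset.mem_filter]
    constructor
    · rintro ⟨_, ⟨h1, S, rfl⟩, h2⟩
      exact ⟨S, h1, h2⟩
    · rintro ⟨S, h1, h2⟩
      exact ⟨_, ⟨h1, S, rfl⟩, h2⟩
  refine ⟨(M.filter (fun k => ∃ S, k = Sum.inr S)).image B,
    M.preimage Sum.inl Sum.inl_injective.injOn, fun q => B (Sum.inl q),
    ?_, ?_, ?_, ?_, ?_, ?_, ?_, ?_⟩
  · intro X hX
    obtain ⟨S, hS, rfl⟩ := (hr X).1 hX
    obtain ⟨c, hc⟩ := m5 S hS
    refine ⟨(m1 _ hS).1, H730.cn_iff.1 (m1 _ hS).2.1, hsub _ hS, ?_, ?_⟩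
    · intro q
      rw [Set.disjoint_left]
      intro v hv hvq
      exact ((lc v c).1 (hc v hv)).2.1 q hvq
    · intro a ha b hb
      rw [((lc a c).1 (hc a ha)).2.2, ((lc b c).1 (hc b hb)).2.2]
  · intro q hqM
    rw [hq] at hqM
    obtain ⟨h1, h2, h3⟩ := m4 q hqM
    refine ⟨H730.cn_iff.1 (m1 _ hqM).2.1, fun v hv => h2 v ((lq v q).2 hv), hsub _ hqM, ?_, ?_⟩
    · intro q' hne
      rw [Set.disjoint_left]
      intro v hv hvq
      rcases h3 v hv with h | ⟨c, x, s, h, _⟩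
      · exact Set.disjoint_left.1 (hQd q' q hne) hvq ((lq v q).1 h)
      · exact ((lc v c).1 h).2.1 q' hvq
    · intro a ha haq
      rcases h3 a ha with h | ⟨c, x, s, h, hx, hs, hxs, _⟩
      · exact absurd ((lq a q).1 h) haq
      · obtain ⟨g1, g2, g3⟩ := (lc x c).1 hx
        refine ⟨x, g1, g2, by rw [g3, ((lc a c).1 h).2.2], s, (lq s q).1 hs, ?_⟩
        rcases cl_iff.1 hxs with e | e
        · exact absurd ((lq s q).1 hs) (e ▸ g2 q)
        · exact e
  · intro X hX
    have hX' : ∃ k ∈ M, X = B k := by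
      rcases hX with hX | ⟨q, hqM, rfl⟩
      · obtain ⟨S, hS, rfl⟩ := (hr X).1 hX
        exact ⟨_, hS, rfl⟩
      · exact ⟨_, (hq q).1 hqM, rfl⟩
    obtain ⟨k, hk, rfl⟩ := hX'
    rw [hfill k hk]
    refine ⟨hWf.subset (fl_sub (hsub k hk)), H730.cn_iff.1 (fl_cn hout (m1 k hk).2.1), ?_,
      sub_fl, fl_sub (hsub k hk)⟩
    refine H730.cn_iff.1 ?_
    rw [fl, compl_compl]
    exact Yc_cn (hsub k hk) hWco'
  · intro X hX X' hX' hne
    obtain ⟨S, hS, rfl⟩ := (hr X).1 hX
    obtain ⟨S', hS', rfl⟩ := (hr X').1 hX'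
    rw [hfill _ hS, hfill _ hS']
    exact m2 _ hS _ hS' (fun h => hne (by rw [h]))
  · intro q hqM q' hqM' hne
    rw [hq] at hqM hqM'
    rw [hfill _ hqM, hfill _ hqM']
    exact m2 _ hqM _ hqM' (fun h => hne (Sum.inl.inj h))
  · intro X hX q hqM
    obtain ⟨S, hS, rfl⟩ := (hr X).1 hX
    rw [hq] at hqM
    rw [hfill _ hS, hfill _ hqM]
    exact m2 _ hS _ hqM (by simp)
  · intro R hRn hRc hRW hR
    obtain ⟨r, hrR⟩ := hRn
    obtain ⟨k, hk, hrk⟩ := m3 r ((l0 r).2 (hRW hrR))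
    have hsame : ∀ a ∈ R, ∀ b ∈ R, lab a = lab b := by
      intro a ha b hb
      rcases hR with ⟨q, hRq⟩ | ⟨hRq, hRc⟩
      · rw [(lq a q).2 (hRq ha), (lq b q).2 (hRq hb)]
      · rw [(lc a (col a)).2 ⟨hRW ha, fun q h => Set.disjoint_left.1 (hRq q) ha h, rfl⟩,
          (lc b (col a)).2 ⟨hRW hb, fun q h => Set.disjoint_left.1 (hRq q) hb h, hRc b hb a ha⟩]
    have hin : R ⊆ fl W (B k) :=
      node_in (fun v hv w hw he => m6 k v hv w hw he) (H730.cn_iff.2 hRc) hsame hrR hrk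
    rw [← hfill k hk] at hin
    rcases k with q | S
    · exact Or.inr ⟨q, (hq q).2 hk, hin⟩
    · exact Or.inl ⟨_, (hr _).2 ⟨S, hk, rfl⟩, hin⟩
  · have h1 := Finset.card_image_le (s := M.filter (fun k => ∃ S, k = Sum.inr S)) (f := B)
    have h2 := vts_card hfin.toFinset
    have h3 : hfin.toFinset.card = Nat.card {t : L × Bool // BadTri W Q col t} := by
      rw [← Set.ncard_eq_toFinset_card _ hfin]
      rfl
    rw [Finset.card_singleton] at m7
    rw [← h3]
    exact le_trans h1 (le_trans m7 (by omega))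

end Vale.Agent.P116.Cl
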