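import Mathlib

/-! Triangular lattice on `ℤ × ℤ`: connectedness, mod 2 cocycles are coboundaries, interfaces. -/

namespace Vale.Agent.P116.H730

abbrev Pt := ℤ × ℤ

/-- equal or adjacent in the triangular lattice -/
def Cl (x y : Pt) : Prop :=
  y.1 - x.1 ≤ 1 ∧ x.1 - y.1 ≤ 1 ∧ y.2 - x.2 ≤ 1 ∧ x.2 - y.2 ≤ 1 ∧
    (y.1 - x.1) - (y.2 - x.2) ≤ 1 ∧ (y.2 - x.2) - (y.1 - x.1) ≤ 1

theorem Cl.refl (x : Pt) : Cl x x := by simp [Cl]

theorem Cl.symm {x y : Pt} (h : Cl x y) : Cl y x := by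
  obtain ⟨h1, h2, h3, h4, h5, h6⟩ := h
  exact ⟨h2, h1, h4, h3, by omega, by omega⟩

/-- joined by a lattice path in `S` -/
def RC (S : Set Pt) (x y : Pt) : Prop :=
  Relation.ReflTransGen (fun a b => Cl a b ∧ a ∈ S ∧ b ∈ S) x y

theorem RC.refl {S : Set Pt} (x : Pt) : RC S x x := Relation.ReflTransGen.refl

theorem RC.trans {S : Set Pt} {x y z : Pt} (h : RC S x y) (h' : RC S y z) : RC S x z :=
  Relation.ReflTransGen.trans h h'

theorem RC.single {S : Set Pt} {x y : Pt} (h : Cl x y) (hx : x ∈ S) (hy : y ∈ S) : RC S x y :=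
  Relation.ReflTransGen.single ⟨h, hx, hy⟩

theorem RC.symm {S : Set Pt} {x y : Pt} (h : RC S x y) : RC S y x := by
  induction h with
  | refl => exact RC.refl _
  | tail _ h2 ih => exact (RC.single h2.1.symm h2.2.2 h2.2.1).trans ih

theorem RC.mono {S T : Set Pt} (hST : S ⊆ T) {x y : Pt} (h : RC S x y) : RC T x y := by
  induction h with
  | refl => exact RC.refl _
  | tail _ h2 ih => exact ih.trans (RC.single h2.1 (hST h2.2.1) (hST h2.2.2))

theorem RC.mem {S : Set Pt} {x y : Pt} (h : RC S x y) (hx : x ∈ S) : y ∈ S := by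
  induction h with
  | refl => exact hx
  | tail _ h2 _ => exact h2.2.2

/-- the points of a path from `x` are themselves joined to `x`: restrict the host set -/
theorem RC.restrict {S T : Set Pt} {x y : Pt} (h : RC S x y)
    (hT : ∀ z, RC S x z → z ∈ T) : RC T x y := by
  induction h with
  | refl => exact RC.refl _
  | tail h1 h2 ih =>
    exact ih.trans (RC.single h2.1 (hT _ h1) (hT _ (h1.trans (RC.single h2.1 h2.2.1 h2.2.2))))

/-- connected set of lattice points -/
def Cn (S : Set Pt) : Prop := ∀ x ∈ S, ∀ y ∈ S, RC S x y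

/-- a path from `X` to the complement crosses an edge -/
theorem RC.cross {S X : Set Pt} {x y : Pt} (h : RC S x y) (hx : x ∈ X) (hy : y ∉ X) :
    ∃ a b, a ∈ S ∧ b ∈ S ∧ a ∈ X ∧ b ∉ X ∧ Cl a b := by
  induction h with
  | refl => exact absurd hx hy
  | @tail b c h1 h2 ih =>
    by_cases hb : b ∈ X
    · exact ⟨b, c, h2.2.1, h2.2.2, hb, hy, h2.1⟩
    · exact ih hb

theorem cn_univ : Cn Set.univ := by
  have hor : ∀ (b : ℤ) (n : ℕ) (a : ℤ), RC Set.univ (a, b) (a + n, b) := by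
    intro b n
    induction n with
    | zero => intro a; simpa using RC.refl _
    | succ n ih =>
      intro a
      refine (ih a).trans (RC.single ?_ trivial trivial)
      simp only [Cl]; push_cast; omega
  have ver : ∀ (a : ℤ) (n : ℕ) (b : ℤ), RC Set.univ (a, b) (a, b + n) := by
    intro a n
    induction n with
    | zero => intro b; simpa using RC.refl _
    | succ n ih =>
      intro b
      refine (ih b).trans (RC.single ?_ trivial trivial)
      simp only [Cl]; push_cast; omega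
  have hor' : ∀ (b a a' : ℤ), RC Set.univ (a, b) (a', b) := by
    intro b a a'
    rcases le_total a a' with h | h
    · have := hor b (a' - a).toNat a
      rwa [show a + ((a' - a).toNat : ℤ) = a' by omega] at this
    · have := hor b (a - a').toNat a'
      rw [show a' + ((a - a').toNat : ℤ) = a by omega] at this
      exact this.symm
  have ver' : ∀ (a b b' : ℤ), RC Set.univ (a, b) (a, b') := by
    intro a b b'
    rcases le_total b b' with h | h
    · have := ver a (b' - b).toNat b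
      rwa [show b + ((b' - b).toNat : ℤ) = b' by omega] at this
    · have := ver a (b - b').toNat b'
      rw [show b' + ((b - b').toNat : ℤ) = b by omega] at this
      exact this.symm
  rintro ⟨a, b⟩ - ⟨a', b'⟩ -
  exact (hor' b a a').trans (ver' a' b b')

/-- between a nonempty set and its nonempty complement there is an edge -/
theorem exists_edge {X : Set Pt} {x y : Pt} (hx : x ∈ X) (hy : y ∉ X) :
    ∃ a b, a ∈ X ∧ b ∉ X ∧ Cl a b := by
  obtain ⟨a, b, -, -, ha, hb, hab⟩ := (cn_univ x trivial y trivial).cross hx hy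
  exact ⟨a, b, ha, hb, hab⟩

theorem int_prim (g : ℤ → ZMod 2) : ∃ F : ℤ → ZMod 2, F 0 = 0 ∧ ∀ a, F (a + 1) = F a + g a := by
  refine ⟨fun a => if 0 ≤ a then ∑ k ∈ Finset.range a.toNat, g k
    else ∑ k ∈ Finset.range (-a).toNat, g (-(k : ℤ) - 1), by simp, ?_⟩
  intro a
  beta_reduce
  by_cases h : 0 ≤ a
  · rw [if_pos h, if_pos (by omega : 0 ≤ a + 1), show (a + 1).toNat = a.toNat + 1 by omega,
      Finset.sum_range_succ, Int.toNat_of_nonneg h]
  · rw [if_neg h]
    by_cases h' : a = -1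
    · subst h'
      have e : g (-1) + g (-1) = 0 := CharTwo.add_self_eq_zero _
      simp [e]
    · rw [if_neg (by omega : ¬ 0 ≤ a + 1), show (-a).toNat = (-(a + 1)).toNat + 1 by omega,
        Finset.sum_range_succ]
      have e : (-((-(a + 1)).toNat : ℤ) - 1) = a := by omega
      rw [e, add_assoc, CharTwo.add_self_eq_zero, add_zero]

/-- mod 2 cocycles on the triangular lattice are coboundaries -/
theorem coc (c : Pt → Pt → ZMod 2) (hs : ∀ x y, c x y = c y x)
    (hc : ∀ x y z, Cl x y → Cl y z → Cl x z → c x y + c y z + c x z = 0) :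
    ∃ f : Pt → ZMod 2, ∀ x y, Cl x y → c x y = f x + f y := by
  have z1 : ∀ a b c : ZMod 2, b = a + c → c = a + b := by decide
  have two : (2 : ZMod 2) = 0 := by decide
  have z2 : ∀ h h' v v' d f1 f2 f3 f4 : ZMod 2, h = f1 + f2 → v = f1 + f3 → v' = f2 + f4 →
      h + v' + d = 0 → v + h' + d = 0 → h' = f3 + f4 := by
    intro h h' v v' d f1 f2 f3 f4 e1 e2 e3 e4 e5
    subst e1 e2 e3
    linear_combination e5 - e4 + (f2 - f3) * two
  have z3 : ∀ h h' v v' d f1 f2 f3 f4 : ZMod 2, h' = f3 + f4 → v = f1 + f3 → v' = f2 + f4 →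
      h + v' + d = 0 → v + h' + d = 0 → h = f1 + f2 := by
    intro h h' v v' d f1 f2 f3 f4 e1 e2 e3 e4 e5
    subst e1 e2 e3
    linear_combination e4 - e5 + (f3 - f2) * two
  have z4 : ∀ h v' d f1 f2 f4 : ZMod 2, h = f1 + f2 → v' = f2 + f4 → h + v' + d = 0 →
      d = f1 + f4 := by
    intro h v' d f1 f2 f4 e1 e2 e3
    subst e1 e2
    linear_combination e3 - (f1 + f2 + f4) * two
  have z5 : ∀ a : ZMod 2, a + a + a = 0 → a = 0 := by decide
  obtain ⟨H, hH0, hH⟩ := int_prim (fun a => c (a, 0) (a + 1, 0))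
  choose V hV0 hV using fun a : ℤ => int_prim (fun b => c (a, b) (a, b + 1))
  set f : Pt → ZMod 2 := fun x => H x.1 + V x.1 x.2 with hf
  have ver : ∀ a b : ℤ, c (a, b) (a, b + 1) = f (a, b) + f (a, b + 1) := by
    intro a b
    apply z1
    simp only [hf]
    rw [hV a b]
    ring
  have sq1 : ∀ a b : ℤ, c (a, b) (a + 1, b) + c (a + 1, b) (a + 1, b + 1) +
      c (a, b) (a + 1, b + 1) = 0 := by
    intro a b
    exact hc _ _ _ (by simp [Cl]) (by simp [Cl]) (by simp [Cl])
  have sq2 : ∀ a b : ℤ, c (a, b) (a, b + 1) + c (a, b + 1) (a + 1, b + 1) +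
      c (a, b) (a + 1, b + 1) = 0 := by
    intro a b
    exact hc _ _ _ (by simp [Cl]) (by simp [Cl]) (by simp [Cl])
  have hor : ∀ a b : ℤ, c (a, b) (a + 1, b) = f (a, b) + f (a + 1, b) := by
    intro a b
    induction b using Int.induction_on with
    | zero =>
      apply z1
      simp only [hf]
      rw [hV0, hV0, hH a]
      ring
    | succ n ih =>
      exact z2 _ _ _ _ _ _ _ _ _ ih (ver a n) (ver (a + 1) n) (sq1 a n) (sq2 a n)
    | pred n ih =>
      have e : (-(n : ℤ) - 1 + 1) = -n := by ring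
      have v1 := ver a (-n - 1)
      have v2 := ver (a + 1) (-n - 1)
      have s1 := sq1 a (-n - 1)
      have s2 := sq2 a (-n - 1)
      rw [e] at v1 v2 s1 s2
      exact z3 _ _ _ _ _ _ _ _ _ ih v1 v2 s1 s2
  have dia : ∀ a b : ℤ, c (a, b) (a + 1, b + 1) = f (a, b) + f (a + 1, b + 1) := by
    intro a b
    exact z4 _ _ _ _ _ _ (hor a b) (ver (a + 1) b) (sq1 a b)
  refine ⟨f, ?_⟩
  rintro ⟨a, b⟩ ⟨a', b'⟩ ⟨h1, h2, h3, h4, h5, h6⟩
  simp only at h1 h2 h3 h4 h5 h6
  have hd : (a' = a ∧ b' = b) ∨ (a' = a + 1 ∧ b' = b) ∨ (a' = a ∧ b' = b + 1) ∨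
      (a' = a + 1 ∧ b' = b + 1) ∨ (a = a' + 1 ∧ b = b') ∨ (a = a' ∧ b = b' + 1) ∨
      (a = a' + 1 ∧ b = b' + 1) := by omega
  rcases hd with ⟨rfl, rfl⟩ | ⟨rfl, rfl⟩ | ⟨rfl, rfl⟩ | ⟨rfl, rfl⟩ | ⟨rfl, rfl⟩ | ⟨rfl, rfl⟩ |
    ⟨rfl, rfl⟩
  · rw [z5 _ (hc (a', b') (a', b') (a', b') (Cl.refl _) (Cl.refl _) (Cl.refl _)),
      CharTwo.add_self_eq_zero]
  · exact hor a b'
  · exact ver a' b
  · exact dia a b
  · rw [hs, hor a' b, add_comm]
  · rw [hs, ver a b', add_comm]
  · rw [hs, dia a' b', add_comm]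

/-- the interface between two complementary connected sets is connected under
`two edges of one triangle` (induction principle) -/
theorem iface {X : Set Pt} (hX : Cn X) (hY : Cn Xᶜ) (P : Pt → Pt → Prop)
    (h1 : ∀ x x' y, x ∈ X → x' ∈ X → y ∉ X → Cl x x' → Cl x y → Cl x' y → P x y → P x' y)
    (h2 : ∀ x y y', x ∈ X → y ∉ X → y' ∉ X → Cl y y' → Cl x y → Cl x y' → P x y → P x y')
    {x0 y0 : Pt} (hx0 : x0 ∈ X) (hy0 : y0 ∉ X) (h0 : Cl x0 y0) (hP : P x0 y0) :
    ∀ x ∈ X, ∀ y, y ∉ X → Cl x y → P x y := by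
  classical
  set c : Pt → Pt → ZMod 2 := fun a b =>
    if (a ∈ X ∧ b ∉ X ∧ P a b) ∨ (b ∈ X ∧ a ∉ X ∧ P b a) then 1 else 0 with hc
  have cs : ∀ a b, c a b = c b a := by
    intro a b
    simp only [hc]
    congr 1
    exact propext or_comm
  have c1 : ∀ a b, a ∈ X → b ∉ X → c a b = if P a b then 1 else 0 := by
    intro a b ha hb
    simp only [hc]
    congr 1
    apply propext
    constructor
    · rintro (⟨_, _, h⟩ | ⟨h, _⟩)
      · exact h
      · exact absurd h hb
    · intro h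
      exact Or.inl ⟨ha, hb, h⟩
  have c0 : ∀ a b, (a ∈ X ↔ b ∈ X) → c a b = 0 := by
    intro a b hab
    simp only [hc]
    rw [if_neg]
    rintro (⟨h, h', _⟩ | ⟨h, h', _⟩)
    · exact h' (hab.1 h)
    · exact h' (hab.2 h)
  have t1 : ∀ a b y, a ∈ X → b ∈ X → y ∉ X → Cl a b → Cl a y → Cl b y → c a y = c b y := by
    intro a b y ha hb hy hab hay hby
    rw [c1 a y ha hy, c1 b y hb hy]
    congr 1
    exact propext ⟨h1 a b y ha hb hy hab hay hby, h1 b a y hb ha hy hab.symm hby hay⟩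
  have t2 : ∀ a y z, a ∈ X → y ∉ X → z ∉ X → Cl y z → Cl a y → Cl a z → c a y = c a z := by
    intro a y z ha hy hz hyz hay haz
    rw [c1 a y ha hy, c1 a z ha hz]
    congr 1
    exact propext ⟨h2 a y z ha hy hz hyz hay haz, h2 a z y ha hz hy hyz.symm haz hay⟩
  have e2 : ∀ a : ZMod 2, a + a = 0 := by decide
  obtain ⟨f, hf⟩ := coc c cs (by
    intro x y z hxy hyz hxz
    by_cases hx : x ∈ X <;> by_cases hy : y ∈ X <;> by_cases hz : z ∈ X
    · rw [c0 x y (by tauto), c0 y z (by tauto), c0 x z (by tauto)]; rfl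
    · rw [c0 x y (by tauto), t1 x y z hx hy hz hxy hxz hyz, zero_add, e2]
    · rw [c0 x z (by tauto), t1 x z y hx hz hy hxz hxy hyz.symm, cs z y, add_zero, e2]
    · rw [c0 y z (by tauto), t2 x y z hx hy hz hyz hxy hxz, add_zero, e2]
    · rw [c0 y z (by tauto), cs x y, cs x z, t1 y z x hy hz hx hyz hxy.symm hxz.symm, add_zero, e2]
    · rw [c0 x z (by tauto), cs x y, t2 y x z hy hx hz hxz hxy.symm hyz, add_zero, e2]
    · rw [c0 x y (by tauto), cs y z, cs x z, t2 z y x hz hy hx hxy.symm hyz.symm hxz.symm,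
        zero_add, e2]
    · rw [c0 x y (by tauto), c0 y z (by tauto), c0 x z (by tauto)]; rfl)
  have e3 : ∀ a b : ZMod 2, 0 = a + b → a = b := by decide
  have fcon : ∀ S : Set Pt, (∀ a ∈ S, ∀ b ∈ S, (a ∈ X ↔ b ∈ X)) → ∀ x y, RC S x y → f x = f y := by
    intro S hS x y h
    induction h with
    | refl => rfl
    | tail _ h2 ih =>
      rw [ih]
      apply e3
      rw [← hf _ _ h2.1, c0 _ _ (hS _ h2.2.1 _ h2.2.2)]
  intro x hx y hy hxy
  have e := hf x y hxy
  have e0 := hf x0 y0 h0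
  rw [fcon X (fun a ha b hb => by tauto) x x0 (hX x hx x0 hx0),
    fcon Xᶜ (fun a ha b hb => by
      have := ha; have := hb; simp only [Set.mem_compl_iff] at *; tauto) y y0 (hY y hy y0 hy0),
    ← e0, c1 x y hx hy, c1 x0 y0 hx0 hy0, if_pos hP] at e
  by_contra hc
  rw [if_neg hc] at e
  exact absurd e (by decide)

end Vale.Agent.P116.H730
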